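import Vale.Agent.P281.H747.HK.WVal
import Vale.Agent.P281.H864.HK.WStokes
import Vale.Agent.P281.H747.TS.Alg

/-!
# P281, T-HK, block I3 (`PosStmt`): types and positivity (helper747)
-/

open Set Filter Metric MeasureTheory
open scoped Topology ContDiff ComplexConjugate ComplexOrder

noncomputable section

namespace Vale.Agent.P281.H747.HK

open Vale.Agent.P281.H64.TK Vale.Agent.P281.H64.TK.TS Vale.Agent.P281.H83.HK
open Vale.Agent.P281.H64 (Cm)

/-- The density `σ ∧ conj σ ∧ w^(d-2)`. -/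
theorem W3_pos {m : ℕ} {s w : Matrix (Fin (m + 2)) (Fin (m + 2)) ℂ} (hs : s.transpose = -s)
    (hw : w.PosDef) : ∃ r : ℝ, 0 ≤ r ∧ W3 (tf s) (cj (tf s)) (kf w) = (r : ℂ) ∧ (s ≠ 0 → 0 < r) ∧
      (s = 0 → r = 0) := by
  obtain ⟨J, K, h1, hJK, hKJ, -, hdet⟩ := exists_J hw
  have h2 := W3_pull J (a := tf s) (b := cj (tf s)) (c := kf w)
    (a' := tf (K.transpose * s * K)) (b' := cj (tf (K.transpose * s * K))) (c' := kf 1)
    (fun u v => by rw [← tf_pull, pull_back hKJ])
    (fun u v => by rw [cj_apply, cj_apply, ← tf_pull, pull_back hKJ])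
    (fun u v => by rw [h1]; exact kf_one_J J u v)
  set s₁ := K.transpose * s * K with hs₁
  have hsk : s₁.transpose = -s₁ := skew_pull hs
  have h3 : (s₁ * s₁.map conj).trace = -((∑ j, ∑ k, ‖s₁ j k‖ ^ 2 : ℝ) : ℂ) := by
    simp only [Matrix.trace, Matrix.diag_apply, Matrix.mul_apply, Matrix.map_apply]
    push_cast
    rw [← Finset.sum_neg_distrib]
    refine Finset.sum_congr rfl fun j _ => ?_
    rw [← Finset.sum_neg_distrib]
    refine Finset.sum_congr rfl fun k _ => ?_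
    have h4 : s₁ k j = - s₁ j k := congrFun (congrFun hsk j) k
    rw [h4, map_neg, mul_neg, Complex.mul_conj, Complex.normSq_eq_norm_sq]
    push_cast
    ring
  have hdJ : 0 < ‖J.det‖ := by
    have h5 : J.det * K.det = 1 := by rw [← Matrix.det_mul, hJK, Matrix.det_one]
    have h6 : J.det ≠ 0 := by
      intro h; rw [h, zero_mul] at h5; exact zero_ne_one h5
    exact norm_pos_iff.2 h6
  have hfac : (0 : ℝ) < (m.factorial : ℝ) := by exact_mod_cast m.factorial_pos
  have hsum : 0 ≤ ∑ j, ∑ k, ‖s₁ j k‖ ^ 2 :=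
    Finset.sum_nonneg fun j _ => Finset.sum_nonneg fun k _ => by positivity
  refine ⟨2 * m.factorial * (∑ j, ∑ k, ‖s₁ j k‖ ^ 2) * ‖J.det‖ ^ 2, by positivity, ?_, ?_, ?_⟩
  · rw [h2, W3_tf_cj_one hsk hsk, h3]
    push_cast
    ring
  · intro hne
    have h4 : s₁ ≠ 0 := by
      intro h5
      apply hne
      rw [← pull_back hKJ s, ← hs₁, h5, Matrix.mul_zero, Matrix.zero_mul]
    have h5 : 0 < ∑ j, ∑ k, ‖s₁ j k‖ ^ 2 := by
      obtain ⟨j, k, hjk⟩ : ∃ j k, s₁ j k ≠ 0 := by
        by_contra hcon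
        push Not at hcon
        exact h4 (Matrix.ext fun j k => hcon j k)
      refine Finset.sum_pos' (fun j _ => Finset.sum_nonneg fun k _ => by positivity)
        ⟨j, Finset.mem_univ _, Finset.sum_pos' (fun k _ => by positivity)
          ⟨k, Finset.mem_univ _, by positivity⟩⟩
    positivity
  · intro h0
    have h4 : s₁ = 0 := by rw [hs₁, h0, Matrix.mul_zero, Matrix.zero_mul]
    rw [h4]
    simp

section
variable {d : ℕ} {E Γ : Type} [TopologicalSpace E] [Group Γ] [MulAction Γ E] {S : Sheets d E Γ}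

theorem int_congr' [Subsingleton Γ] {D D' : Fin S.N → Cm d → ℂ}
    (h : ∀ i, ∀ z ∈ ball (0 : Cm d) 3, D i z = D' i z) : S.int D = S.int D' := by
  unfold Sheets.int
  refine Finset.sum_congr rfl fun i _ => ?_
  exact setIntegral_congr_fun (H840.TS.meas_P S i) fun z hz => h i z
    (ball_subset_ball (by norm_num) (H840.TS.P_sub S i hz))

theorem cont_W3 {a b c : Fin S.N → Cm d → L2 d} (ha : Cl2 S a) (hb : Cl2 S b) (hc : Cl2 S c)
    (i : Fin S.N) : ContinuousOn (fun z => W3 (a i z) (b i z) (c i z)) (ball 0 3) := by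
  have h0 : ∀ {a : Fin S.N → Cm d → L2 d}, Cl2 S a → ContinuousOn (a i) (ball 0 3) :=
    fun ha z hz => (ha.smooth i z hz (mem_univ _)).continuousAt.continuousWithinAt
  have h1 := H864.HK.cont_W (s := ball (0 : Cm d) 3)
    (α := fun (k : Fin d) z => abc (a i z) (b i z) (c i z) k) (fun k => by
      unfold abc
      split_ifs
      · exact h0 ha
      · exact h0 hb
      · exact h0 hc)
  refine h1.congr fun z _ => ?_
  show W3 (a i z) (b i z) (c i z) = _
  rw [W3, W_wv]

/-- Positivity of the integral of a real density. -/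
theorem int_re_pos [Subsingleton Γ] (D : Fin S.N → Cm d → ℂ)
    (hc : ∀ i, ContinuousOn (D i) (ball 0 3)) (P : Fin S.N → Cm d → Prop)
    (hr : ∀ i, ∀ z ∈ ball (0 : Cm d) 3, ∃ r : ℝ, 0 ≤ r ∧ D i z = (r : ℂ) ∧ (P i z → 0 < r) ∧
      (¬ P i z → r = 0))
    (ht : ∀ i j, ∀ z ∈ ball (0 : Cm d) 3, ∀ z' ∈ ball (0 : Cm d) 3, S.σ i z = S.σ j z' →
      P i z → P j z')
    (hne : ∃ i, ∃ z ∈ ball (0 : Cm d) 3, P i z) : 0 < (S.int D).re := by
  have h1 : ∀ i, ∀ z ∈ ball (0 : Cm d) 3, D i z = (((D i z).re : ℝ) : ℂ) := by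
    intro i z hz
    obtain ⟨r, -, h, -⟩ := hr i z hz
    rw [h, Complex.ofReal_re]
  have hP : ∀ i, ∀ z ∈ ball (0 : Cm d) 3, (D i z).re ≠ 0 ↔ P i z := by
    intro i z hz
    obtain ⟨r, -, h, h2, h3⟩ := hr i z hz
    rw [h, Complex.ofReal_re]
    constructor
    · intro h4
      by_contra h5
      exact h4 (h3 h5)
    · intro h4
      exact ne_of_gt (h2 h4)
  rw [int_congr' h1]
  refine TS.int_pos S (fun i z => (D i z).re) (fun i => Complex.continuous_re.comp_continuousOn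
    (hc i)) (fun i z hz => ?_) (fun i j z hz z' hz' he h => ?_) ?_
  · obtain ⟨r, h0, h, -⟩ := hr i z hz
    rw [h, Complex.ofReal_re]
    exact h0
  · exact (hP j z' hz').2 (ht i j z hz z' hz' he ((hP i z hz).1 h))
  · obtain ⟨i, z, hz, h⟩ := hne
    exact ⟨i, z, hz, (hP i z hz).2 h⟩

end

/-- **I3**, from I0. -/
theorem pos (fo : FormsStmt) : PosStmt := by
  intro d E Γ _ _ _ _ _ _ _ S w hd hw
  obtain ⟨m, rfl⟩ : ∃ m, d = m + 2 := ⟨d - 2, by omega⟩
  obtain ⟨hts, hkw, hcj⟩ := fo (m + 2) E Γ S (by omega)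
  have hkc := (hkw w hw).1
  have hfac : (0 : ℝ) < (m.factorial : ℝ) := by exact_mod_cast m.factorial_pos
  refine ⟨?_, fun s s' hs hs' => ⟨?_, ?_, ?_⟩⟩
  · refine int_re_pos _ (fun i => cont_W3 hkc hkc hkc i) (fun _ _ => True) ?_ (by simp) ?_
    · intro i z hz
      have hpd := hw.posDef i z hz
      obtain ⟨J, K, -, hJK, -, -, hdet⟩ := exists_J hpd
      have hdJ : 0 < ‖J.det‖ := by
        have h5 : J.det * K.det = 1 := by rw [← Matrix.det_mul, hJK, Matrix.det_one]
        have h6 : J.det ≠ 0 := by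
          intro h; rw [h, zero_mul] at h5; exact zero_ne_one h5
        exact norm_pos_iff.2 h6
      refine ⟨m.factorial * ‖J.det‖ ^ 2 * ((m + 2) * (m + 1)), by positivity, ?_,
        fun _ => by positivity, fun h => absurd trivial h⟩
      show W3 (kf (w i z)) (kf (w i z)) (kf (w i z)) = _
      have hu : IsUnit (w i z).det := isUnit_iff_ne_zero.2 (ne_of_gt hpd.det_pos)
      rw [W3_kf_kf _ _ hpd, Matrix.nonsing_inv_mul _ hu, Matrix.one_mul, Matrix.trace_one, hdet,
        Fintype.card_fin]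
      push_cast
      ring
    · obtain ⟨e⟩ := (inferInstance : Nonempty E)
      obtain ⟨γ, i, z, hz, -⟩ := S.cover e
      exact ⟨i, z, by simp only [mem_ball, dist_zero_right]; linarith, trivial⟩
  · have h1 : bW S (ts s) (ts s') (kw w) = S.int fun _ _ => 0 :=
      int_congr' fun i z hz => W3_tf_tf (hs.alt i z hz) (hs'.alt i z hz) (hw.posDef i z hz)
    rw [h1]
    simp [Sheets.int]
  · have h1 : bW S (ts s) (kw w) (kw w) = S.int fun _ _ => 0 :=
      int_congr' fun i z hz => W3_tf_kf (hs.alt i z hz) _ (hw.posDef i z hz)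
    rw [h1]
    simp [Sheets.int]
  · intro hne
    refine int_re_pos _ (fun i => cont_W3 (hts s hs) (hcj _ (hts s hs)) hkc i)
      (fun i z => s i z ≠ 0) ?_ ?_ hne
    · intro i z hz
      obtain ⟨r, h1, h2, h3, h4⟩ := W3_pos (hs.alt i z hz) (hw.posDef i z hz)
      exact ⟨r, h1, h2, h3, fun h => h4 (not_not.1 h)⟩
    · intro i j z hz z' hz' he h1 h2
      obtain ⟨θ, k1, k2, k3⟩ := S.hol i j z hz z' hz' 1 (by rw [one_smul]; exact he)
      have h5 := hs.change i j z hz z' hz' θ k1 k2 (k3.mono fun u hu => by rw [hu, one_smul])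
      rw [h2, Matrix.mul_zero, Matrix.zero_mul] at h5
      exact h1 h5

end Vale.Agent.P281.H747.HK
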