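import Vale.Agent.P281.H747.HK.Perm

/-!
# P281, T-HK: reduction of the top products to dimension 2 (helper747)

`a ∧ b ∧ ω^(d-2) = (d-2)! ∑_{j<k} (a ∧ b)|_{jk}`, `a ∧ ω^(d-1) = (d-1)! ∑_j a(e_j, i e_j)`,
`ω^d = d!`, for the standard form `ω`.
-/

open Finset Equiv

noncomputable section

namespace Vale.Agent.P281.H747.HK

/-- The restriction to the coordinates `≠ k`. -/
def rs {n : ℕ} (k : Fin (n + 1)) (A : Fin (n + 1) × Fin 2 → Fin (n + 1) × Fin 2 → ℂ)
    (p q : Fin n × Fin 2) : ℂ := A (k.succAbove p.1, p.2) (k.succAbove q.1, q.2)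

/-- The restriction to the coordinates `j`, `k`. -/
def r2 {n : ℕ} (j k : Fin n) (A : Fin n × Fin 2 → Fin n × Fin 2 → ℂ) (p q : Fin 2 × Fin 2) : ℂ :=
  A (![j, k] p.1, p.2) (![j, k] q.1, q.2)

/-- `(a ∧ b)|_{jk}`. -/
def gg {n : ℕ} (A B : Fin n × Fin 2 → Fin n × Fin 2 → ℂ) (j k : Fin n) : ℂ :=
  w4 (r2 j k A) (r2 j k B)

variable {n : ℕ} {A B : Fin n × Fin 2 → Fin n × Fin 2 → ℂ}

theorem self_zero (hA : ∀ p q, A p q = - A q p) (p : Fin n × Fin 2) : A p p = 0 := by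
  have h := hA p p
  have h2 : (2 : ℂ) * A p p = 0 := by linear_combination h
  simpa using h2

theorem gg_self (hA : ∀ p q, A p q = - A q p) (hB : ∀ p q, B p q = - B q p) (j : Fin n) :
    gg A B j j = 0 := by
  have a1 := hA (j, 1) (j, 0)
  have b1 := hB (j, 1) (j, 0)
  have a0 := self_zero hA (j, 0)
  have a2 := self_zero hA (j, 1)
  have b0 := self_zero hB (j, 0)
  have b2 := self_zero hB (j, 1)
  simp only [gg, w4, r2, Matrix.cons_val_zero, Matrix.cons_val_one, a0, a2, b0, b2, a1, b1]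
  ring

theorem gg_swap (hA : ∀ p q, A p q = - A q p) (hB : ∀ p q, B p q = - B q p) (j k : Fin n) :
    gg A B j k = gg A B k j := by
  simp only [gg, w4, r2, Matrix.cons_val_zero, Matrix.cons_val_one]
  rw [hA (k, 0) (j, 0), hB (k, 1) (j, 1), hA (k, 0) (j, 1), hB (k, 1) (j, 0), hA (k, 1) (j, 0),
    hB (k, 0) (j, 1), hA (k, 1) (j, 1), hB (k, 0) (j, 0)]
  ring

theorem gg_rs {A B : Fin (n + 1) × Fin 2 → Fin (n + 1) × Fin 2 → ℂ} (k : Fin (n + 1))
    (i j : Fin n) : gg (rs k A) (rs k B) i j = gg A B (k.succAbove i) (k.succAbove j) := rfl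

theorem sum_succAbove₂ (g : Fin (n + 1) → Fin (n + 1) → ℂ) (hg : ∀ p, g p p = 0) :
    ∑ k : Fin (n + 1), ∑ i : Fin n, ∑ j : Fin n, g (k.succAbove i) (k.succAbove j) =
      ((n : ℂ) - 1) * ∑ p, ∑ q, g p q := by
  have h1 : ∀ k : Fin (n + 1), ∑ i : Fin n, ∑ j : Fin n, g (k.succAbove i) (k.succAbove j) =
      ∑ p, ∑ q, g p q - ∑ q, g k q - ∑ p, g p k := by
    intro k
    have h2 : ∀ p, ∑ j : Fin n, g p (k.succAbove j) = ∑ q, g p q - g p k := fun p => by
      rw [Fin.sum_univ_succAbove (fun q => g p q) k]; ring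
    have h3 := Fin.sum_univ_succAbove (fun p => ∑ q, g p q - g p k) k
    simp only [h2]
    rw [hg k, sub_zero] at h3
    have h4 : ∑ i : Fin n, (∑ q, g (k.succAbove i) q - g (k.succAbove i) k) =
      ∑ p, (∑ q, g p q - g p k) - ∑ q, g k q := by rw [h3]; ring
    rw [h4, Finset.sum_sub_distrib]
    ring
  simp only [h1, Finset.sum_sub_distrib, Finset.sum_const, Finset.card_univ, Fintype.card_fin,
    nsmul_eq_mul]
  rw [Finset.sum_comm (f := fun k p => g p k)]
  push_cast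
  ring

/-- The product `a ∧ b ∧ ω^(n-2)`. -/
def T2 {n : ℕ} (A B : Fin n × Fin 2 → Fin n × Fin 2 → ℂ) : ℂ :=
  Alt fun i : Fin n => if i.val = 0 then A else if i.val = 1 then B else om

/-- The product `a ∧ ω^(n-1)`. -/
def T1 {n : ℕ} (A : Fin n × Fin 2 → Fin n × Fin 2 → ℂ) : ℂ :=
  Alt fun i : Fin n => if i.val = 0 then A else om

/-- The product `ω^n`. -/
def T0 (n : ℕ) : ℂ := Alt fun _ : Fin n => om

theorem om_rs (k : Fin (n + 1)) (p q : Fin n × Fin 2) :
    om (k.succAbove p.1, p.2) (k.succAbove q.1, q.2) = om p q := by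
  unfold om
  simp only [Fin.succAbove_right_injective.eq_iff]

theorem T2_succ (m : ℕ) (A B : Fin (m + 3) × Fin 2 → Fin (m + 3) × Fin 2 → ℂ) :
    T2 A B = ∑ k : Fin (m + 3), T2 (rs k A) (rs k B) := by
  unfold T2
  rw [alt_last _ fun p q => by simp]
  refine Finset.sum_congr rfl fun k _ => ?_
  congr 1
  funext i p q
  simp only [Fin.val_castSucc]
  split_ifs
  · rfl
  · rfl
  · exact om_rs k p q

theorem T1_succ (m : ℕ) (A : Fin (m + 2) × Fin 2 → Fin (m + 2) × Fin 2 → ℂ) :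
    T1 A = ∑ k : Fin (m + 2), T1 (rs k A) := by
  unfold T1
  rw [alt_last _ fun p q => by simp]
  refine Finset.sum_congr rfl fun k _ => ?_
  congr 1
  funext i p q
  simp only [Fin.val_castSucc]
  split_ifs
  · rfl
  · exact om_rs k p q

theorem T0_succ (m : ℕ) : T0 (m + 1) = (m + 1) * T0 m := by
  unfold T0
  rw [alt_last _ fun p q => rfl]
  have : ∀ k : Fin (m + 1), (Alt fun (_ : Fin m) (p q : Fin m × Fin 2) =>
      om (k.succAbove p.1, p.2) (k.succAbove q.1, q.2)) = Alt fun _ : Fin m => om := by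
    intro k
    congr 1
    funext i p q
    exact om_rs k p q
  rw [Finset.sum_congr rfl fun k _ => this k]
  simp

/-- **[K0]** -/
theorem T0_eq : ∀ m : ℕ, T0 m = (m.factorial : ℂ)
  | 0 => by simp [T0, Alt]
  | m + 1 => by
    rw [T0_succ, T0_eq m, Nat.factorial_succ]
    push_cast
    ring

/-- **[K1]** -/
theorem T1_eq : ∀ (m : ℕ) (A : Fin (m + 1) × Fin 2 → Fin (m + 1) × Fin 2 → ℂ),
    (∀ p q, A p q = - A q p) → T1 A = (m.factorial : ℂ) * ∑ j, A (j, 0) (j, 1)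
  | 0, A, hA => by
    unfold T1 Alt
    let e : Fin 1 × Fin 2 ≃ Fin 2 := Equiv.uniqueProd (Fin 2) (Fin 1)
    have h1 : ∑ π : Perm (Fin 1 × Fin 2), ((Perm.sign π : ℤ) : ℂ) *
        ∏ i : Fin 1, (if i.val = 0 then A else om) (π (i, 0)) (π (i, 1)) =
        ∑ σ : Perm (Fin 2), ((Perm.sign σ : ℤ) : ℂ) * A (e.symm (σ 0)) (e.symm (σ 1)) := by
      rw [← Equiv.sum_comp e.permCongr]
      refine Finset.sum_congr rfl fun π _ => ?_
      rw [Perm.sign_permCongr, Fin.prod_univ_one]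
      simp only [Equiv.permCongr_apply, Equiv.symm_apply_apply]
      rfl
    rw [h1, sum_perm2 fun x y => A (e.symm x) (e.symm y)]
    have h2 := hA (e.symm 1) (e.symm 0)
    have e0 : e.symm 0 = (0, 0) := rfl
    have e1 : e.symm 1 = (0, 1) := rfl
    rw [h2, e0, e1]
    simp
    ring
  | m + 1, A, hA => by
    rw [T1_succ, Finset.sum_congr rfl fun k _ => T1_eq m (rs k A) fun p q => hA _ _]
    rw [← Finset.mul_sum]
    have h1 : ∀ k : Fin (m + 2), ∑ j : Fin (m + 1), rs k A (j, 0) (j, 1) =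
        ∑ p, A (p, 0) (p, 1) - A (k, 0) (k, 1) := fun k => by
      rw [Fin.sum_univ_succAbove (fun p => A (p, 0) (p, 1)) k]
      simp only [rs]
      ring
    simp only [h1, Finset.sum_sub_distrib, Finset.sum_const, Finset.card_univ, Fintype.card_fin,
      nsmul_eq_mul]
    rw [Nat.factorial_succ]
    push_cast
    ring

/-- **[K]** -/
theorem T2_eq : ∀ (m : ℕ) (A B : Fin (m + 2) × Fin 2 → Fin (m + 2) × Fin 2 → ℂ),
    (∀ p q, A p q = - A q p) → (∀ p q, B p q = - B q p) →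
    2 * T2 A B = (m.factorial : ℂ) * ∑ j, ∑ k, gg A B j k
  | 0, A, B, hA, hB => by
    have h1 : T2 A B = w4 A B := by
      rw [← alt_two A B hA hB]
      unfold T2
      congr 1
      funext i
      fin_cases i <;> rfl
    have h2 : gg A B 0 1 = w4 A B := rfl
    have h3 : gg A B 1 0 = w4 A B := by rw [gg_swap hA hB, h2]
    rw [h1]
    have h4 : ∑ j : Fin 2, ∑ k : Fin 2, gg A B j k = 2 * w4 A B := by
      rw [Fin.sum_univ_two, Fin.sum_univ_two, Fin.sum_univ_two, gg_self hA hB, gg_self hA hB, h2,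
        h3]
      ring
    show 2 * w4 A B = ((Nat.factorial 0 : ℕ) : ℂ) * ∑ j : Fin 2, ∑ k : Fin 2, gg A B j k
    rw [h4, Nat.factorial_zero, Nat.cast_one, one_mul]
  | m + 1, A, B, hA, hB => by
    rw [T2_succ, Finset.mul_sum]
    rw [Finset.sum_congr rfl fun k _ => T2_eq m (rs k A) (rs k B) (fun p q => hA _ _)
      fun p q => hB _ _]
    simp only [gg_rs]
    rw [← Finset.mul_sum, sum_succAbove₂ _ fun p => gg_self hA hB p, Nat.factorial_succ]
    push_cast
    ring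

end Vale.Agent.P281.H747.HK
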