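import Vale.Agent.P281.H83.HK.Defs
import Vale.Agent.P281.H864.HK.W
import Vale.Agent.P281.H747.HK.Red

/-!
# P281, T-HK: pointwise algebra of the products `a ∧ b ∧ w^(d-2)` (helper747)
-/

open Set Filter Metric MeasureTheory
open scoped Topology ContDiff ComplexConjugate ComplexOrder

noncomputable section

namespace Vale.Agent.P281.H747.HK

open Vale.Agent.P281.H64.TK Vale.Agent.P281.H64.TK.TS Vale.Agent.P281.H83.HK
open Vale.Agent.P281.H64 (Cm)

variable {d : ℕ}

/-- The unit `1` or `i`. -/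
def ui (l : Fin 2) : ℂ := if l = 0 then 1 else Complex.I

/-- The values of a form on the real basis. -/
def vl (a : L2 d) (p q : Fin d × Fin 2) : ℂ := a (rb p) (rb q)

theorem W_alt (a : Fin d → L2 d) : W a = Alt fun i => vl (a i) := by
  unfold W Alt vl
  rw [one_div]

theorem W_wv (a : Fin d → L2 d) : W a = H864.HK.W a := by
  have h : (rb : Fin d × Fin 2 → Cm d) = H864.HK.rbp d := by
    funext q
    obtain ⟨k, l⟩ := q
    rw [H864.HK.rbp_apply]
    unfold rb
    congr 1
    fin_cases l <;> rfl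
  unfold W H864.HK.W H864.HK.Wv H864.HK.pr
  rw [← h, Fintype.card_fin, one_div, inv_pow]

theorem tf_apply (s : Matrix (Fin d) (Fin d) ℂ) (u v : Cm d) :
    tf s u v = ∑ j, ∑ k, s j k * (u j * v k) := rfl

theorem kf_apply (w : Matrix (Fin d) (Fin d) ℂ) (u v : Cm d) :
    kf w u v = Complex.I / 2 * ∑ j, ∑ k, w j k * (u j * conj (v k) - v j * conj (u k)) := rfl

theorem cj_apply (a : L2 d) (u v : Cm d) : cj a u v = conj (a u v) := rfl

theorem sum_single (p q : Fin d × Fin 2) (s : Matrix (Fin d) (Fin d) ℂ) (f : ℂ → ℂ)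
    (hf : f 0 = 0) : ∑ j, ∑ k, s j k * ((rb p : Cm d) j * f ((rb q : Cm d) k)) =
      s p.1 q.1 * (ui p.2 * f (ui q.2)) := by
  rw [Finset.sum_eq_single p.1, Finset.sum_eq_single q.1]
  · simp [rb, ui]
  · intro k _ hk
    have : (rb q : Cm d) k = 0 := by simp [rb, hk]
    rw [this, hf]; ring
  · intro h; exact absurd (Finset.mem_univ _) h
  · intro j _ hj
    have : (rb p : Cm d) j = 0 := by simp [rb, hj]
    refine Finset.sum_eq_zero fun k _ => ?_
    rw [this]; ring
  · intro h; exact absurd (Finset.mem_univ _) h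

theorem vl_tf (s : Matrix (Fin d) (Fin d) ℂ) (p q : Fin d × Fin 2) :
    vl (tf s) p q = s p.1 q.1 * (ui p.2 * ui q.2) := by
  rw [vl, tf_apply]
  exact sum_single p q s (fun x => x) rfl

theorem vl_cj (a : L2 d) (p q : Fin d × Fin 2) : vl (cj a) p q = conj (vl a p q) := rfl

theorem vl_kf (w : Matrix (Fin d) (Fin d) ℂ) (p q : Fin d × Fin 2) :
    vl (kf w) p q = Complex.I / 2 * (w p.1 q.1 * (ui p.2 * conj (ui q.2)) -
      w q.1 p.1 * (ui q.2 * conj (ui p.2))) := by
  rw [vl, kf_apply]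
  have h1 := sum_single p q w (fun x => conj x) (map_zero _)
  have h2 := sum_single q p w (fun x => conj x) (map_zero _)
  simp only [mul_sub, Finset.sum_sub_distrib] at h1 h2 ⊢
  rw [h1, h2]

theorem vl_one (p q : Fin d × Fin 2) : vl (kf (1 : Matrix (Fin d) (Fin d) ℂ)) p q = om p q := by
  rw [vl_kf]
  obtain ⟨i, l⟩ := p
  obtain ⟨j, l'⟩ := q
  simp only [Matrix.one_apply, om]
  by_cases h : i = j
  · subst h
    fin_cases l <;> fin_cases l' <;> simp [ui]
    · ring_nf; simp
    · ring_nf; simp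
  · rw [if_neg h, if_neg (Ne.symm h), if_neg h]
    simp

theorem abc_vl (a b c : L2 d) (i : Fin d) : vl (abc a b c i) =
    if i.val = 0 then vl a else if i.val = 1 then vl b else vl c := by
  unfold abc
  split_ifs <;> rfl

/-- The product for the standard metric. -/
theorem W3_T2 (a b : L2 d) : W3 a b (kf 1) = T2 (vl a) (vl b) := by
  rw [W3, W_alt, T2]
  congr 1
  funext i
  rw [abc_vl]
  have : vl (kf (1 : Matrix (Fin d) (Fin d) ℂ)) = om := by funext p q; exact vl_one p q
  rw [this]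

theorem W3_T1 (a : L2 d) : W3 a (kf 1) (kf 1) = T1 (vl a) := by
  rw [W3, W_alt, T1]
  congr 1
  funext i
  have : vl (kf (1 : Matrix (Fin d) (Fin d) ℂ)) = om := by funext p q; exact vl_one p q
  rw [abc_vl, this]
  split_ifs <;> rfl

theorem W3_T0 : W3 (kf (1 : Matrix (Fin d) (Fin d) ℂ)) (kf 1) (kf 1) = (d.factorial : ℂ) := by
  rw [← T0_eq, W3, W_alt, T0]
  congr 1
  funext i
  have : vl (kf (1 : Matrix (Fin d) (Fin d) ℂ)) = om := by funext p q; exact vl_one p q
  rw [abc_vl, this]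
  split_ifs <;> rfl

theorem alt_tf {s : Matrix (Fin d) (Fin d) ℂ} (hs : s.transpose = -s) (p q : Fin d × Fin 2) :
    vl (tf s) p q = - vl (tf s) q p := by
  have h : s q.1 p.1 = - s p.1 q.1 := congrFun (congrFun hs p.1) q.1
  rw [vl_tf, vl_tf, h]
  ring

theorem alt_kf (w : Matrix (Fin d) (Fin d) ℂ) (p q : Fin d × Fin 2) :
    vl (kf w) p q = - vl (kf w) q p := by
  rw [vl_kf, vl_kf]
  ring

theorem alt_cj {a : L2 d} (h : ∀ p q, vl a p q = - vl a q p) (p q : Fin d × Fin 2) :
    vl (cj a) p q = - vl (cj a) q p := by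
  rw [vl_cj, vl_cj, h, map_neg]

theorem skew_self {s : Matrix (Fin d) (Fin d) ℂ} (hs : s.transpose = -s) (j : Fin d) :
    s j j = 0 := by
  have h : s j j = - s j j := congrFun (congrFun hs j) j
  have h2 : (2 : ℂ) * s j j = 0 := by linear_combination h
  simpa using h2

theorem gg_tf_cj {s : Matrix (Fin d) (Fin d) ℂ} (hs : s.transpose = -s)
    (s' : Matrix (Fin d) (Fin d) ℂ) (j k : Fin d) :
    gg (vl (tf s)) (vl (cj (tf s'))) j k = 4 * (s j k * conj (s' j k)) := by
  have h1 := skew_self hs j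
  have h2 := skew_self hs k
  simp only [gg, w4, r2, Matrix.cons_val_zero, Matrix.cons_val_one, vl_cj, vl_tf, h1, h2, ui]
  simp
  ring_nf
  simp
  ring

theorem gg_tf_tf {s : Matrix (Fin d) (Fin d) ℂ} (hs : s.transpose = -s)
    (s' : Matrix (Fin d) (Fin d) ℂ) (j k : Fin d) : gg (vl (tf s)) (vl (tf s')) j k = 0 := by
  have h1 := skew_self hs j
  have h2 := skew_self hs k
  simp only [gg, w4, r2, Matrix.cons_val_zero, Matrix.cons_val_one, vl_tf, h1, h2, ui]
  simp
  ring_nf
  simp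

theorem gg_tf_kf {s : Matrix (Fin d) (Fin d) ℂ} (hs : s.transpose = -s)
    (w : Matrix (Fin d) (Fin d) ℂ) (j k : Fin d) : gg (vl (tf s)) (vl (kf w)) j k = 0 := by
  have h1 := skew_self hs j
  have h2 := skew_self hs k
  simp only [gg, w4, r2, Matrix.cons_val_zero, Matrix.cons_val_one, vl_tf, vl_kf, h1, h2, ui]
  simp
  ring_nf

theorem gg_kf_kf (w w' : Matrix (Fin d) (Fin d) ℂ) (j k : Fin d) :
    gg (vl (kf w)) (vl (kf w')) j k =
      w j j * w' k k + w k k * w' j j - w j k * w' k j - w k j * w' j k := by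
  simp only [gg, w4, r2, Matrix.cons_val_zero, Matrix.cons_val_one, vl_kf, ui]
  simp
  ring_nf
  simp
  ring

/-! ### Linearity and symmetry -/

section lin
variable {m : ℕ}

theorem abc_upd0 (a a' b c : L2 (m + 2)) : abc a b c = Function.update (abc a' b c) 0 a := by
  funext i
  by_cases h : i = 0
  · subst h; simp [abc]
  · rw [Function.update_of_ne h]
    have h0 : i.val ≠ 0 := fun h1 => h (Fin.ext h1)
    simp [abc, h0]

theorem W3_add (a a' b c : L2 (m + 2)) : W3 (a + a') b c = W3 a b c + W3 a' b c := by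
  rw [W3, W3, W3, W_wv, W_wv, W_wv, abc_upd0 (a + a') 0, abc_upd0 a 0, abc_upd0 a' 0]
  exact H864.HK.Wv_add _ _ _ _ _

theorem W3_smul (x : ℂ) (a b c : L2 (m + 2)) : W3 (x • a) b c = x * W3 a b c := by
  rw [W3, W3, W_wv, W_wv, abc_upd0 (x • a) 0, abc_upd0 a 0]
  exact H864.HK.Wv_smul _ _ _ _ _

theorem W3_swap (a b c : L2 (m + 2)) : W3 a b c = W3 b a c := by
  rw [W3, W3, W_wv, W_wv]
  have h : abc b a c = fun i => abc a b c (Equiv.swap (0 : Fin (m + 2)) 1 i) := by
    funext i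
    by_cases h0 : i = 0
    · subst h0; rw [Equiv.swap_apply_left]; simp [abc]
    · by_cases h1 : i = 1
      · subst h1; rw [Equiv.swap_apply_right]; simp [abc]
      · rw [Equiv.swap_apply_of_ne_of_ne h0 h1]
        have h2 : i.val ≠ 0 := fun h => h0 (Fin.ext h)
        have h3 : i.val ≠ 1 := fun h => h1 (Fin.ext (by simpa using h))
        simp [abc, h2, h3]
  rw [h]
  exact (H864.HK.Wv_perm _ _ _).symm

theorem W3_conj (a b c : L2 d) : W3 (cj a) (cj b) (cj c) = conj (W3 a b c) := by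
  rw [W3, W3, W_wv, W_wv]
  refine H864.HK.Wv_conj (fun i u v => ?_) _
  unfold abc
  split_ifs <;> rfl

end lin

/-! ### The standard metric -/

section std
variable {m : ℕ}

theorem W3_tf_cj_one {s s' : Matrix (Fin (m + 2)) (Fin (m + 2)) ℂ} (hs : s.transpose = -s)
    (hs' : s'.transpose = -s') : W3 (tf s) (cj (tf s')) (kf 1) =
      -(2 * (m.factorial : ℂ)) * (s * s'.map conj).trace := by
  have h := T2_eq m (vl (tf s)) (vl (cj (tf s'))) (alt_tf hs) (alt_cj (alt_tf hs'))
  rw [← W3_T2] at h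
  simp only [gg_tf_cj hs] at h
  have h2 : (s * s'.map conj).trace = -∑ j, ∑ k, s j k * conj (s' j k) := by
    simp only [Matrix.trace, Matrix.diag_apply, Matrix.mul_apply, Matrix.map_apply]
    rw [← Finset.sum_neg_distrib]
    refine Finset.sum_congr rfl fun j _ => ?_
    rw [← Finset.sum_neg_distrib]
    refine Finset.sum_congr rfl fun k _ => ?_
    have h3 : s' j k = - s' k j := congrFun (congrFun hs' k) j
    rw [h3, map_neg]
    ring
  simp only [← Finset.mul_sum] at h
  rw [h2]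
  linear_combination h / 2

theorem W3_tf_tf_one {s s' : Matrix (Fin (m + 2)) (Fin (m + 2)) ℂ} (hs : s.transpose = -s)
    (hs' : s'.transpose = -s') : W3 (tf s) (tf s') (kf 1) = 0 := by
  have h := T2_eq m (vl (tf s)) (vl (tf s')) (alt_tf hs) (alt_tf hs')
  rw [← W3_T2] at h
  simp only [gg_tf_tf hs, Finset.sum_const_zero, mul_zero] at h
  simpa using h

theorem W3_tf_kf_one {s : Matrix (Fin (m + 2)) (Fin (m + 2)) ℂ} (hs : s.transpose = -s)
    (H : Matrix (Fin (m + 2)) (Fin (m + 2)) ℂ) : W3 (tf s) (kf H) (kf 1) = 0 := by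
  have h := T2_eq m (vl (tf s)) (vl (kf H)) (alt_tf hs) (alt_kf H)
  rw [← W3_T2] at h
  simp only [gg_tf_kf hs, Finset.sum_const_zero, mul_zero] at h
  simpa using h

theorem W3_kf_kf_one (H H' : Matrix (Fin (m + 2)) (Fin (m + 2)) ℂ) :
    W3 (kf H) (kf H') (kf 1) = (m.factorial : ℂ) * (H.trace * H'.trace - (H * H').trace) := by
  have h := T2_eq m (vl (kf H)) (vl (kf H')) (alt_kf H) (alt_kf H')
  rw [← W3_T2] at h
  have h2 : ∑ j, ∑ k, gg (vl (kf H)) (vl (kf H')) j k =
      2 * (H.trace * H'.trace - (H * H').trace) := by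
    simp only [gg_kf_kf, Finset.sum_sub_distrib, Finset.sum_add_distrib]
    have e1 : ∑ j, ∑ k, H j j * H' k k = H.trace * H'.trace := by
      simp only [Matrix.trace, Matrix.diag_apply, Finset.sum_mul_sum]
    have e2 : ∑ j, ∑ k, H k k * H' j j = H.trace * H'.trace := by
      rw [Finset.sum_comm]; exact e1
    have e3 : ∑ j, ∑ k, H j k * H' k j = (H * H').trace := by
      simp only [Matrix.trace, Matrix.diag_apply, Matrix.mul_apply]
    have e4 : ∑ j, ∑ k, H k j * H' j k = (H * H').trace := by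
      rw [Finset.sum_comm]; exact e3
    rw [e1, e2, e3, e4]
    ring
  rw [h2] at h
  linear_combination h / 2

theorem W3_kf_one (H : Matrix (Fin (m + 1)) (Fin (m + 1)) ℂ) :
    W3 (kf H) (kf 1) (kf 1) = (m.factorial : ℂ) * H.trace := by
  rw [W3_T1, T1_eq m _ (alt_kf H)]
  congr 1
  simp only [Matrix.trace, Matrix.diag_apply]
  refine Finset.sum_congr rfl fun j _ => ?_
  rw [vl_kf]
  simp only [ui]
  simp
  ring_nf
  simp

end std

/-! ### Change of coordinates -/

/-- Multiplication by `J`, over `ℝ`. -/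
def LJ (J : Matrix (Fin d) (Fin d) ℂ) : Cm d →L[ℝ] Cm d :=
  (LinearMap.toContinuousLinearMap (Matrix.toLin' J)).restrictScalars ℝ

theorem LJ_apply (J : Matrix (Fin d) (Fin d) ℂ) (u : Cm d) : LJ J u = J.mulVec u := rfl

theorem LJ_det (J : Matrix (Fin d) (Fin d) ℂ) : (LJ J).det = ‖J.det‖ ^ 2 := by
  have h2 : (LJ J).det = LinearMap.det ((Matrix.toLin' J : Cm d →ₗ[ℂ] Cm d).restrictScalars ℝ) := rfl
  rw [h2, LinearMap.det_restrictScalars, Algebra.norm_complex_apply, LinearMap.det_toLin',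
    Complex.normSq_eq_norm_sq]

theorem sum_pull (J K s : Matrix (Fin d) (Fin d) ℂ) (u v : Fin d → ℂ) :
    ∑ j, ∑ k, (J.transpose * s * K) j k * (u j * v k) =
      ∑ j, ∑ k, s j k * (J.mulVec u j * K.mulVec v k) := by
  have h1 : ∀ (A : Matrix (Fin d) (Fin d) ℂ) (u v : Fin d → ℂ),
      ∑ j, ∑ k, A j k * (u j * v k) = u ⬝ᵥ A.mulVec v := by
    intro A u v
    simp only [dotProduct, Matrix.mulVec, Finset.mul_sum]
    exact Finset.sum_congr rfl fun j _ => Finset.sum_congr rfl fun k _ => by ring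
  rw [h1, h1, ← Matrix.mulVec_mulVec, ← Matrix.mulVec_mulVec, Matrix.dotProduct_mulVec,
    Matrix.vecMul_transpose]

theorem tf_pull (J s : Matrix (Fin d) (Fin d) ℂ) (u v : Cm d) :
    tf (J.transpose * s * J) u v = tf s (LJ J u) (LJ J v) := by
  rw [tf_apply, tf_apply, sum_pull]
  rfl

theorem kf_pull (J w : Matrix (Fin d) (Fin d) ℂ) (u v : Cm d) :
    kf (J.transpose * w * J.map conj) u v = kf w (LJ J u) (LJ J v) := by
  have h0 : ∀ v : Cm d, (fun k => conj ((J.mulVec v) k)) = (J.map conj).mulVec fun k => conj (v k) := by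
    intro v
    funext k
    simp only [Matrix.mulVec, dotProduct, map_sum, map_mul, Matrix.map_apply]
  have h1 : ∀ (A : Matrix (Fin d) (Fin d) ℂ) (u v : Cm d),
      kf A u v = Complex.I / 2 * (∑ j, ∑ k, A j k * (u j * conj (v k)) -
        ∑ j, ∑ k, A j k * (v j * conj (u k))) := by
    intro A u v
    rw [kf_apply]
    simp only [mul_sub, Finset.sum_sub_distrib]
  rw [h1, h1, sum_pull J (J.map conj) w u fun k => conj (v k),
    sum_pull J (J.map conj) w v fun k => conj (u k), ← h0, ← h0]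
  rfl

theorem W3_pull (J : Matrix (Fin d) (Fin d) ℂ) {a b c a' b' c' : L2 d}
    (ha : ∀ u v, a u v = a' (LJ J u) (LJ J v)) (hb : ∀ u v, b u v = b' (LJ J u) (LJ J v))
    (hc : ∀ u v, c u v = c' (LJ J u) (LJ J v)) : W3 a b c = W3 a' b' c' * ‖J.det‖ ^ 2 := by
  rw [W3, W3, W_wv, W_wv, H864.HK.W_pull (LJ J) (a' := abc a' b' c') (fun i u v => ?_), LJ_det]
  · push_cast; rfl
  · unfold abc
    split_ifs
    · exact ha u v
    · exact hb u v
    · exact hc u v

end Vale.Agent.P281.H747.HK
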