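import Vale.Agent.P281.H83.HK.Spec
import Vale.Agent.P281.H747.HK.Alg
import Vale.Agent.P272.K.QN.H527.Mat

/-!
# P281, T-HK, block W3 (`WValStmt`): the value of `a ∧ b ∧ w^(d-2)` (helper747)
-/

open Set Filter Metric MeasureTheory
open scoped Topology ContDiff ComplexConjugate ComplexOrder

noncomputable section

namespace Vale.Agent.P281.H747.HK

open Vale.Agent.P281.H64.TK Vale.Agent.P281.H64.TK.TS Vale.Agent.P281.H83.HK
open Vale.Agent.P281.H64 (Cm)

variable {m : ℕ}

theorem map_conj_mul {d : ℕ} (A B : Matrix (Fin d) (Fin d) ℂ) :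
    (A * B).map conj = A.map conj * B.map conj := by
  ext i j
  simp only [Matrix.map_apply, Matrix.mul_apply, map_sum, map_mul]

/-- `w = Jᵀ conj J`, with an inverse `K` of `J`. -/
theorem exists_J {d : ℕ} {w : Matrix (Fin d) (Fin d) ℂ} (hw : w.PosDef) :
    ∃ J K : Matrix (Fin d) (Fin d) ℂ, w = J.transpose * J.map conj ∧ J * K = 1 ∧ K * J = 1 ∧
      w⁻¹ = K.map conj * K.transpose ∧ w.det = ((‖J.det‖ ^ 2 : ℝ) : ℂ) := by
  obtain ⟨A, hA⟩ := Vale.Agent.P272.K.C2.exists_factor hw.posSemidef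
  have h1 : w = (A.map conj).transpose * (A.map conj).map conj := by
    rw [hA]
    congr 1
    ext i j
    simp
  have hdet : w.det = (((‖(A.map conj).det‖ ^ 2 : ℝ)) : ℂ) := by
    have h2 : ((A.map conj).map conj).det = conj (A.map conj).det :=
      (RingHom.map_det (starRingEnd ℂ) (A.map conj)).symm
    rw [h1, Matrix.det_mul, Matrix.det_transpose, h2, Complex.mul_conj, Complex.normSq_eq_norm_sq]
  have h3 : (A.map conj).det ≠ 0 := by
    intro h
    have := hw.det_pos
    rw [hdet, h] at this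
    simp at this
  have hu : IsUnit (A.map conj).det := isUnit_iff_ne_zero.2 h3
  refine ⟨A.map conj, (A.map conj)⁻¹, h1, Matrix.mul_nonsing_inv _ hu, Matrix.nonsing_inv_mul _ hu,
    ?_, hdet⟩
  refine Matrix.inv_eq_left_inv ?_
  set J := A.map conj
  rw [h1]
  have h4 : J⁻¹.transpose * J.transpose = 1 := by
    rw [← Matrix.transpose_mul, Matrix.mul_nonsing_inv _ hu, Matrix.transpose_one]
  have h5 : J⁻¹.map conj * J.map conj = 1 := by
    rw [← map_conj_mul, Matrix.nonsing_inv_mul _ hu]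
    ext i j
    simp [Matrix.one_apply, apply_ite]
  calc J⁻¹.map conj * J⁻¹.transpose * (J.transpose * J.map conj)
      = J⁻¹.map conj * (J⁻¹.transpose * J.transpose) * J.map conj := by
        simp only [Matrix.mul_assoc]
    _ = 1 := by rw [h4, Matrix.mul_one, h5]

theorem kf_one_J {d : ℕ} (J : Matrix (Fin d) (Fin d) ℂ) (u v : Cm d) :
    kf (J.transpose * J.map conj) u v = kf 1 (LJ J u) (LJ J v) := by
  rw [← kf_pull, Matrix.mul_one]

theorem skew_pull {d : ℕ} {s K : Matrix (Fin d) (Fin d) ℂ} (hs : s.transpose = -s) :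
    (K.transpose * s * K).transpose = -(K.transpose * s * K) := by
  rw [Matrix.transpose_mul, Matrix.transpose_mul, Matrix.transpose_transpose, hs]
  simp only [Matrix.mul_assoc, Matrix.neg_mul, Matrix.mul_neg]

theorem pull_back {d : ℕ} {J K : Matrix (Fin d) (Fin d) ℂ} (hKJ : K * J = 1)
    (s : Matrix (Fin d) (Fin d) ℂ) : J.transpose * (K.transpose * s * K) * J = s := by
  have h : J.transpose * K.transpose = 1 := by
    rw [← Matrix.transpose_mul, hKJ, Matrix.transpose_one]
  calc J.transpose * (K.transpose * s * K) * J = (J.transpose * K.transpose) * s * (K * J) := by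
        simp only [Matrix.mul_assoc]
    _ = s := by rw [h, hKJ, Matrix.one_mul, Matrix.mul_one]

theorem pull_back' {d : ℕ} {J K : Matrix (Fin d) (Fin d) ℂ} (hKJ : K * J = 1)
    (H : Matrix (Fin d) (Fin d) ℂ) :
    J.transpose * (K.transpose * H * K.map conj) * J.map conj = H := by
  have h : J.transpose * K.transpose = 1 := by
    rw [← Matrix.transpose_mul, hKJ, Matrix.transpose_one]
  have h5 : K.map conj * J.map conj = 1 := by
    rw [← map_conj_mul, hKJ]
    ext i j
    simp [Matrix.one_apply, apply_ite]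
  calc J.transpose * (K.transpose * H * K.map conj) * J.map conj =
        (J.transpose * K.transpose) * H * (K.map conj * J.map conj) := by
        simp only [Matrix.mul_assoc]
    _ = H := by rw [h, h5, Matrix.one_mul, Matrix.mul_one]

/-- The value for `tf s`, `cj (tf s')`. -/
theorem W3_tf_cj {s s' w : Matrix (Fin (m + 2)) (Fin (m + 2)) ℂ} (hs : s.transpose = -s)
    (hs' : s'.transpose = -s') (hw : w.PosDef) : W3 (tf s) (cj (tf s')) (kf w) =
      (m.factorial : ℂ) * w.det *
        (2 * (w⁻¹ * s * (w⁻¹).transpose * (s'.map conj).transpose).trace) := by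
  obtain ⟨J, K, h1, -, hKJ, hwi, hdet⟩ := exists_J hw
  have h2 := W3_pull J (a := tf s) (b := cj (tf s')) (c := kf w)
    (a' := tf (K.transpose * s * K)) (b' := cj (tf (K.transpose * s' * K))) (c' := kf 1)
    (fun u v => by rw [← tf_pull, pull_back hKJ])
    (fun u v => by rw [cj_apply, cj_apply, ← tf_pull, pull_back hKJ])
    (fun u v => by rw [h1]; exact kf_one_J J u v)
  rw [h2, W3_tf_cj_one (skew_pull hs) (skew_pull hs'), hdet]
  have h3 : (K.transpose * s * K * (K.transpose * s' * K).map conj).trace =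
      -(w⁻¹ * s * (w⁻¹).transpose * (s'.map conj).transpose).trace := by
    have h4 : (s'.map conj).transpose = -(s'.map conj) := by
      rw [← Matrix.transpose_map, hs']
      ext i j
      simp
    have h5 : (K.map conj).transpose = K.transpose.map conj := Matrix.transpose_map.symm
    rw [h4, hwi, map_conj_mul, map_conj_mul, Matrix.transpose_mul, Matrix.transpose_transpose, h5,
      Matrix.mul_neg, Matrix.trace_neg, neg_neg]
    rw [← Matrix.mul_assoc (K.transpose * s * K), Matrix.trace_mul_comm _ (K.map conj)]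
    simp only [Matrix.mul_assoc]
  rw [h3]
  push_cast
  ring

theorem W3_tf_tf {s s' w : Matrix (Fin (m + 2)) (Fin (m + 2)) ℂ} (hs : s.transpose = -s)
    (hs' : s'.transpose = -s') (hw : w.PosDef) : W3 (tf s) (tf s') (kf w) = 0 := by
  obtain ⟨J, K, h1, -, hKJ, hwi, hdet⟩ := exists_J hw
  have h2 := W3_pull J (a := tf s) (b := tf s') (c := kf w)
    (a' := tf (K.transpose * s * K)) (b' := tf (K.transpose * s' * K)) (c' := kf 1)
    (fun u v => by rw [← tf_pull, pull_back hKJ])
    (fun u v => by rw [← tf_pull, pull_back hKJ])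
    (fun u v => by rw [h1]; exact kf_one_J J u v)
  rw [h2, W3_tf_tf_one (skew_pull hs) (skew_pull hs'), zero_mul]

theorem W3_tf_kf {s w : Matrix (Fin (m + 2)) (Fin (m + 2)) ℂ} (hs : s.transpose = -s)
    (H : Matrix (Fin (m + 2)) (Fin (m + 2)) ℂ) (hw : w.PosDef) : W3 (tf s) (kf H) (kf w) = 0 := by
  obtain ⟨J, K, h1, -, hKJ, hwi, hdet⟩ := exists_J hw
  have h2 := W3_pull J (a := tf s) (b := kf H) (c := kf w)
    (a' := tf (K.transpose * s * K)) (b' := kf (K.transpose * H * K.map conj)) (c' := kf 1)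
    (fun u v => by rw [← tf_pull, pull_back hKJ])
    (fun u v => by rw [← kf_pull, pull_back' hKJ])
    (fun u v => by rw [h1]; exact kf_one_J J u v)
  rw [h2, W3_tf_kf_one (skew_pull hs), zero_mul]

theorem W3_kf_kf {w : Matrix (Fin (m + 2)) (Fin (m + 2)) ℂ}
    (H H' : Matrix (Fin (m + 2)) (Fin (m + 2)) ℂ) (hw : w.PosDef) :
    W3 (kf H) (kf H') (kf w) = (m.factorial : ℂ) * w.det *
      ((w⁻¹ * H).trace * (w⁻¹ * H').trace - (w⁻¹ * H * (w⁻¹ * H')).trace) := by
  obtain ⟨J, K, h1, -, hKJ, hwi, hdet⟩ := exists_J hw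
  have h2 := W3_pull J (a := kf H) (b := kf H') (c := kf w)
    (a' := kf (K.transpose * H * K.map conj)) (b' := kf (K.transpose * H' * K.map conj))
    (c' := kf 1)
    (fun u v => by rw [← kf_pull, pull_back' hKJ])
    (fun u v => by rw [← kf_pull, pull_back' hKJ])
    (fun u v => by rw [h1]; exact kf_one_J J u v)
  have h3 : ∀ H : Matrix (Fin (m + 2)) (Fin (m + 2)) ℂ,
      (K.transpose * H * K.map conj).trace = (w⁻¹ * H).trace := fun H => by
    rw [hwi, Matrix.trace_mul_comm]
    simp only [Matrix.mul_assoc]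
  have h4 : (K.transpose * H * K.map conj * (K.transpose * H' * K.map conj)).trace =
      (w⁻¹ * H * (w⁻¹ * H')).trace := by
    rw [hwi, ← Matrix.mul_assoc (K.transpose * H * K.map conj), Matrix.trace_mul_comm _ (K.map conj)]
    simp only [Matrix.mul_assoc]
  rw [h2, W3_kf_kf_one, h3, h3, h4, hdet]
  push_cast
  ring

/-! ### Decomposition -/

theorem W3_congr {d : ℕ} {a a' b b' c : L2 d} (ha : vl a = vl a') (hb : vl b = vl b') :
    W3 a b c = W3 a' b' c := by
  rw [W3, W3, W_alt, W_alt]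
  congr 1
  funext i
  rw [abc_vl, abc_vl, ha, hb]

/-- The decomposition of a form into types. -/
theorem vl_dec {d : ℕ} (a : L2 d) (ha : ∀ u v, a u v = -a v u) :
    vl a = vl (tf (c20 a) + cj (tf ((c02 a).map conj)) + kf (h11 a)) := by
  funext p q
  have h1 : vl (tf (c20 a) + cj (tf ((c02 a).map conj)) + kf (h11 a)) p q =
      vl (tf (c20 a)) p q + vl (cj (tf ((c02 a).map conj))) p q + vl (kf (h11 a)) p q := rfl
  rw [h1, vl_cj, vl_tf, vl_tf, vl_kf]
  obtain ⟨j, l⟩ := p
  obtain ⟨k, l'⟩ := q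
  have e1 := ha (rb (k, 0)) (rb (j, 0))
  have e2 := ha (rb (k, 1)) (rb (j, 0))
  have e3 := ha (rb (k, 0)) (rb (j, 1))
  have e4 := ha (rb (k, 1)) (rb (j, 1))
  have hI : Complex.I * Complex.I = -1 := Complex.I_mul_I
  simp only [h11, c11, c20, c02, Matrix.smul_apply, Matrix.of_apply, Matrix.map_apply,
    smul_eq_mul, map_mul, Complex.conj_conj, e1, e2, e3, e4]
  fin_cases l <;> fin_cases l' <;>
    simp [ui, vl] <;> ring_nf <;> simp <;> ring

theorem skew_c20 {d : ℕ} (a : L2 d) (ha : ∀ u v, a u v = -a v u) :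
    (c20 a).transpose = -c20 a := by
  ext j k
  simp only [Matrix.transpose_apply, Matrix.neg_apply, c20, Matrix.of_apply]
  rw [ha (rb (k, 0)) (rb (j, 0)), ha (rb (k, 1)) (rb (j, 0)), ha (rb (k, 0)) (rb (j, 1)),
    ha (rb (k, 1)) (rb (j, 1))]
  ring

theorem skew_c02' {d : ℕ} (a : L2 d) (ha : ∀ u v, a u v = -a v u) :
    (c02 a).transpose = -c02 a := by
  ext j k
  simp only [Matrix.transpose_apply, Matrix.neg_apply, c02, Matrix.of_apply]
  rw [ha (rb (k, 0)) (rb (j, 0)), ha (rb (k, 1)) (rb (j, 0)), ha (rb (k, 0)) (rb (j, 1)),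
    ha (rb (k, 1)) (rb (j, 1))]
  ring

theorem skew_c02 {d : ℕ} (a : L2 d) (ha : ∀ u v, a u v = -a v u) :
    ((c02 a).map conj).transpose = -(c02 a).map conj := by
  rw [← Matrix.transpose_map, skew_c02' a ha]
  ext j k
  simp

theorem cj_kf {d : ℕ} (H : Matrix (Fin d) (Fin d) ℂ) : cj (kf H) = kf H.conjTranspose := by
  refine ContinuousLinearMap.ext fun u => ContinuousLinearMap.ext fun v => ?_
  rw [cj_apply, kf_apply, kf_apply]
  simp only [map_mul, map_sum, map_sub, Complex.conj_conj, map_div₀, Complex.conj_I, map_ofNat,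
    Matrix.conjTranspose_apply]
  rw [Finset.sum_comm, Finset.mul_sum, Finset.mul_sum]
  refine Finset.sum_congr rfl fun j _ => ?_
  rw [Finset.mul_sum, Finset.mul_sum]
  refine Finset.sum_congr rfl fun k _ => ?_
  simp only [RCLike.star_def]
  ring

/-- **W3**. -/
theorem wVal : WValStmt := by
  intro d a b w hd ha hb hw
  obtain ⟨m, rfl⟩ : ∃ m, d = m + 2 := ⟨d - 2, by omega⟩
  rw [W3_congr (vl_dec a ha) (vl_dec b hb)]
  have sa := skew_c20 a ha
  have sa' := skew_c02 a ha
  have sb := skew_c20 b hb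
  have sb' := skew_c02 b hb
  have hcw : cj (kf w) = kf w := by rw [cj_kf, hw.isHermitian.eq]
  have hkf : ∀ {s : Matrix (Fin (m + 2)) (Fin (m + 2)) ℂ} (_ : s.transpose = -s)
      (H : Matrix (Fin (m + 2)) (Fin (m + 2)) ℂ), W3 (cj (tf s)) (kf H) (kf w) = 0 := by
    intro s hs H
    have h1 := W3_conj (tf s) (kf H.conjTranspose) (kf w)
    rw [cj_kf H.conjTranspose, Matrix.conjTranspose_conjTranspose, hcw, W3_tf_kf hs _ hw,
      map_zero] at h1
    exact h1
  have hcc : ∀ {s s' : Matrix (Fin (m + 2)) (Fin (m + 2)) ℂ} (_ : s.transpose = -s)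
      (_ : s'.transpose = -s'), W3 (cj (tf s)) (cj (tf s')) (kf w) = 0 := by
    intro s s' hs hs'
    have h1 := W3_conj (tf s) (tf s') (kf w)
    rw [hcw, W3_tf_tf hs hs' hw, map_zero] at h1
    exact h1
  have hadd : ∀ a a' b : L2 (m + 2), W3 b (a + a') (kf w) = W3 b a (kf w) + W3 b a' (kf w) := by
    intro a a' b
    rw [W3_swap, W3_add, W3_swap a, W3_swap a']
  rw [W3_add, W3_add, hadd, hadd, hadd, hadd, hadd, hadd, W3_tf_tf sa sb hw,
    W3_tf_cj sa sb' hw, W3_tf_kf sa _ hw, W3_swap (cj (tf _)) (tf _), W3_tf_cj sb sa' hw,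
    hcc sa' sb', hkf sa', W3_swap (kf _) (tf _), W3_tf_kf sb _ hw, W3_swap (kf _) (cj _), hkf sb',
    W3_kf_kf _ _ hw]
  have e1 : ∀ c : Matrix (Fin (m + 2)) (Fin (m + 2)) ℂ, (c.map conj).map conj = c := by
    intro c
    ext i j
    simp
  rw [e1, e1]
  simp only [Nat.add_sub_cancel]
  ring

end Vale.Agent.P281.H747.HK
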