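import Mathlib

/-!
# P281, T-HK: top products of 2-forms, combinatorics of the sum over the permutations of the
pairs (helper747)
-/

open Finset Equiv

noncomputable section

namespace Vale.Agent.P281.H747.HK

/-- The alternating sum which gives the top product of `n` 2-forms, with values `F i` on the pairs
of basis vectors. -/
def Alt {n : ℕ} (F : Fin n → Fin n × Fin 2 → Fin n × Fin 2 → ℂ) : ℂ :=
  (1 / 2 ^ n) * ∑ π : Perm (Fin n × Fin 2),
    ((Perm.sign π : ℤ) : ℂ) * ∏ i, F i (π (i, 0)) (π (i, 1))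

/-- The values of the standard form `Σ dx_k ∧ dy_k`. -/
def om {n : ℕ} (p q : Fin n × Fin 2) : ℂ :=
  if p.1 = q.1 then (if p.2 = 0 ∧ q.2 = 1 then 1 else if p.2 = 1 ∧ q.2 = 0 then -1 else 0) else 0

theorem perm_two : ∀ τ : Perm (Fin 2), (if τ 0 = 0 ∧ τ 1 = 1 then (1 : ℤ) else
    if τ 0 = 1 ∧ τ 1 = 0 then -1 else 0) = (Perm.sign τ : ℤ) := by decide

section
variable {m : ℕ}

/-- The permutation of `Fin (m + 1)` which sends `last` to `k`, and is increasing on the rest. -/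
def ck (k : Fin (m + 1)) : Perm (Fin (m + 1)) :=
  (finSuccEquiv' (Fin.last m)).trans (finSuccEquiv' k).symm

theorem ck_last (k : Fin (m + 1)) : ck k (Fin.last m) = k := by
  simp [ck]

theorem ck_castSucc (k : Fin (m + 1)) (i : Fin m) : ck k i.castSucc = k.succAbove i := by
  have h : (Fin.last m).succAbove i = i.castSucc := Fin.succAbove_last_apply i
  rw [ck, Equiv.trans_apply, ← h, finSuccEquiv'_succAbove, finSuccEquiv'_symm_some]

/-- The permutation of the pairs. -/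
def Pk (k : Fin (m + 1)) : Perm (Fin (m + 1) × Fin 2) := Equiv.prodCongrLeft fun _ => ck k

theorem sign_Pk (k : Fin (m + 1)) : Perm.sign (Pk k) = 1 := by
  rw [Pk, Perm.sign_prodCongrLeft]
  simp

theorem Pk_apply (k : Fin (m + 1)) (x : Fin (m + 1) × Fin 2) : Pk k x = (ck k x.1, x.2) := rfl

/-- `Fin 2 ⊕ Fin m × Fin 2 ≃ Fin (m + 1) × Fin 2`. -/
def eE (m : ℕ) : Fin 2 ⊕ (Fin m × Fin 2) ≃ Fin (m + 1) × Fin 2 where
  toFun := Sum.elim (fun ε => (Fin.last m, ε)) fun p => (p.1.castSucc, p.2)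
  invFun x := Fin.lastCases (motive := fun _ => Fin 2 ⊕ (Fin m × Fin 2)) (Sum.inl x.2)
    (fun i => Sum.inr (i, x.2)) x.1
  left_inv x := by
    rcases x with ε | ⟨i, ε⟩
    · simp
    · simp
  right_inv x := by
    obtain ⟨j, ε⟩ := x
    refine Fin.lastCases ?_ (fun i => ?_) j
    · simp
    · simp

theorem eE_inl (ε : Fin 2) : eE m (Sum.inl ε) = (Fin.last m, ε) := rfl

theorem eE_inr (p : Fin m × Fin 2) : eE m (Sum.inr p) = (p.1.castSucc, p.2) := rfl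

/-- The permutations which send the last pair to the pair `k`. -/
def Th (x : Fin (m + 1) × Perm (Fin 2) × Perm (Fin m × Fin 2)) : Perm (Fin (m + 1) × Fin 2) :=
  Pk x.1 * (eE m).permCongr (Perm.sumCongr x.2.1 x.2.2)

theorem Th_last (x : Fin (m + 1) × Perm (Fin 2) × Perm (Fin m × Fin 2)) (ε : Fin 2) :
    Th x (Fin.last m, ε) = (x.1, x.2.1 ε) := by
  rw [Th, Perm.mul_apply, ← eE_inl, Equiv.permCongr_apply, Equiv.symm_apply_apply,
    Perm.sumCongr_apply, Sum.map_inl, eE_inl, Pk_apply, ck_last]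

theorem Th_cast (x : Fin (m + 1) × Perm (Fin 2) × Perm (Fin m × Fin 2)) (i : Fin m) (ε : Fin 2) :
    Th x (i.castSucc, ε) = (x.1.succAbove (x.2.2 (i, ε)).1, (x.2.2 (i, ε)).2) := by
  have : ((i.castSucc, ε) : Fin (m + 1) × Fin 2) = eE m (Sum.inr (i, ε)) := rfl
  rw [Th, Perm.mul_apply, this, Equiv.permCongr_apply, Equiv.symm_apply_apply,
    Perm.sumCongr_apply, Sum.map_inr, eE_inr, Pk_apply, ck_castSucc]

theorem sign_Th (x : Fin (m + 1) × Perm (Fin 2) × Perm (Fin m × Fin 2)) :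
    Perm.sign (Th x) = Perm.sign x.2.1 * Perm.sign x.2.2 := by
  rw [Th, Perm.sign_mul, sign_Pk, one_mul, Perm.sign_permCongr, Perm.sign_sumCongr]

theorem Th_injective : Function.Injective (Th (m := m)) := by
  rintro ⟨k, τ, ρ⟩ ⟨k', τ', ρ'⟩ h
  have h0 := congrArg (fun π : Perm (Fin (m + 1) × Fin 2) => π (Fin.last m, 0)) h
  simp only [Th_last, Prod.mk.injEq] at h0
  obtain rfl : k = k' := h0.1
  have h1 : τ = τ' := by
    ext ε : 1
    have := congrArg (fun π : Perm (Fin (m + 1) × Fin 2) => π (Fin.last m, ε)) h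
    simp only [Th_last, Prod.mk.injEq] at this
    exact this.2
  have h2 : ρ = ρ' := by
    refine Equiv.ext fun x => ?_
    obtain ⟨i, ε⟩ := x
    have := congrArg (fun π : Perm (Fin (m + 1) × Fin 2) => π (i.castSucc, ε)) h
    simp only [Th_cast, Prod.mk.injEq] at this
    exact Prod.ext (Fin.succAbove_right_injective this.1) this.2
  rw [h1, h2]

theorem exists_Th (π : Perm (Fin (m + 1) × Fin 2))
    (h : (π (Fin.last m, 0)).1 = (π (Fin.last m, 1)).1) : ∃ x, Th x = π := by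
  set k := (π (Fin.last m, 0)).1 with hk
  set σ : Perm (Fin 2 ⊕ (Fin m × Fin 2)) := (eE m).symm.permCongr ((Pk k)⁻¹ * π) with hσ
  have hck : ∀ ε, ((Pk k)⁻¹ * π) (Fin.last m, ε) = (Fin.last m, (π (Fin.last m, ε)).2) := by
    intro ε
    have h1 : (π (Fin.last m, ε)).1 = k := by
      fin_cases ε
      · rfl
      · exact h.symm
    rw [Perm.mul_apply, Perm.inv_eq_iff_eq, Pk_apply]
    exact Prod.ext (by simp [ck_last, h1]) rfl
  have hm : Set.MapsTo σ (Set.range Sum.inl) (Set.range Sum.inl) := by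
    rintro _ ⟨ε, rfl⟩
    refine ⟨(π (Fin.last m, ε)).2, ?_⟩
    rw [hσ, Equiv.permCongr_apply, Equiv.symm_symm, eE_inl, hck]
    exact ((eE m).symm_apply_eq.2 rfl).symm
  obtain ⟨⟨τ, ρ⟩, hτρ⟩ := Perm.mem_sumCongrHom_range_of_perm_mapsTo_inl hm
  refine ⟨(k, τ, ρ), ?_⟩
  have h2 : Perm.sumCongr τ ρ = σ := hτρ
  show Pk k * (eE m).permCongr (Perm.sumCongr τ ρ) = π
  rw [h2, hσ]
  ext x : 1
  simp [Perm.mul_apply, Equiv.permCongr_apply]

/-- **[R]**: the product with the standard form. -/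
theorem alt_last (F : Fin (m + 1) → Fin (m + 1) × Fin 2 → Fin (m + 1) × Fin 2 → ℂ)
    (hF : ∀ p q, F (Fin.last m) p q = om p q) :
    Alt F = ∑ k : Fin (m + 1), Alt fun i p q =>
      F i.castSucc (k.succAbove p.1, p.2) (k.succAbove q.1, q.2) := by
  unfold Alt
  rw [← Finset.mul_sum]
  have h1 : ∑ π : Perm (Fin (m + 1) × Fin 2),
      ((Perm.sign π : ℤ) : ℂ) * ∏ i, F i (π (i, 0)) (π (i, 1)) =
      ∑ x : Fin (m + 1) × Perm (Fin 2) × Perm (Fin m × Fin 2),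
        ((Perm.sign (Th x) : ℤ) : ℂ) * ∏ i, F i (Th x (i, 0)) (Th x (i, 1)) := by
    symm
    refine Finset.sum_of_injOn Th (fun x _ y _ h => Th_injective h) (fun _ _ => by simp) ?_ ?_
    · intro π _ hπ
      by_cases h : (π (Fin.last m, 0)).1 = (π (Fin.last m, 1)).1
      · obtain ⟨x, hx⟩ := exists_Th π h
        exact absurd ⟨x, by simp, hx⟩ hπ
      · rw [Fin.prod_univ_castSucc, hF, om, if_neg h, mul_zero, mul_zero]
    · intro x _; rfl
  have h2 : ∀ (k : Fin (m + 1)) (τ : Perm (Fin 2)) (ρ : Perm (Fin m × Fin 2)),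
      ((Perm.sign (Th (k, τ, ρ)) : ℤ) : ℂ) *
        ∏ i, F i (Th (k, τ, ρ) (i, 0)) (Th (k, τ, ρ) (i, 1)) =
      ((Perm.sign ρ : ℤ) : ℂ) * ∏ i : Fin m, F i.castSucc (k.succAbove (ρ (i, 0)).1, (ρ (i, 0)).2)
        (k.succAbove (ρ (i, 1)).1, (ρ (i, 1)).2) := by
    intro k τ ρ
    rw [Fin.prod_univ_castSucc, hF, sign_Th]
    simp only [Th_last, Th_cast]
    have h3 : om ((k, τ 0) : Fin (m + 1) × Fin 2) (k, τ 1) = ((Perm.sign τ : ℤ) : ℂ) := by
      rw [← perm_two τ, om, if_pos rfl]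
      push_cast
      rfl
    rw [h3]
    have h4 : ((Perm.sign τ : ℤ) : ℂ) * ((Perm.sign τ : ℤ) : ℂ) = 1 := by
      have := Int.units_mul_self (Perm.sign τ)
      rw [← Int.cast_mul, ← Units.val_mul, this]
      simp
    push_cast
    linear_combination ((Perm.sign ρ : ℤ) : ℂ) * (∏ i : Fin m,
      F i.castSucc (k.succAbove (ρ (i, 0)).1, (ρ (i, 0)).2)
        (k.succAbove (ρ (i, 1)).1, (ρ (i, 1)).2)) * h4
  rw [h1, Fintype.sum_prod_type]
  simp only [Fintype.sum_prod_type, h2]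
  simp only [Finset.sum_const, Finset.card_univ, Fintype.card_perm, Fintype.card_fin]
  rw [← Finset.smul_sum, pow_succ]
  simp [Nat.factorial]
  ring

end

/-! ### Two forms in dimension 2 -/

theorem sum_perm_succ {n : ℕ} (G : Perm (Fin (n + 1)) → ℂ) :
    ∑ σ : Perm (Fin (n + 1)), G σ =
      ∑ p : Fin (n + 1), ∑ e : Perm (Fin n), G (Perm.decomposeFin.symm (p, e)) := by
  rw [← Fintype.sum_prod_type (f := fun x => G (Perm.decomposeFin.symm x))]
  exact (Equiv.sum_comp Perm.decomposeFin.symm G).symm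

theorem sign_dec {n : ℕ} (p : Fin (n + 1)) (e : Perm (Fin n)) :
    ((Perm.sign (Perm.decomposeFin.symm (p, e)) : ℤ) : ℂ) =
      (if p = 0 then 1 else -1) * ((Perm.sign e : ℤ) : ℂ) := by
  rw [Equiv.Perm.decomposeFin.symm_sign]
  split_ifs <;> simp

theorem sum_perm2 (g : Fin 2 → Fin 2 → ℂ) :
    ∑ σ : Perm (Fin 2), ((Perm.sign σ : ℤ) : ℂ) * g (σ 0) (σ 1) = g 0 1 - g 1 0 := by
  rw [sum_perm_succ]
  simp only [sign_dec, Perm.decomposeFin_symm_apply_zero, Perm.decomposeFin_symm_apply_one]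
  rw [Fin.sum_univ_two]
  simp
  ring

theorem sum_perm3 (g : Fin 3 → Fin 3 → Fin 3 → ℂ) :
    ∑ σ : Perm (Fin 3), ((Perm.sign σ : ℤ) : ℂ) * g (σ 0) (σ 1) (σ 2) =
      g 0 1 2 - g 0 2 1 - g 1 0 2 + g 1 2 0 + g 2 0 1 - g 2 1 0 := by
  rw [sum_perm_succ]
  have h : ∀ (p : Fin 3) (e : Perm (Fin 2)),
      ((Perm.sign (Perm.decomposeFin.symm (p, e)) : ℤ) : ℂ) *
        g ((Perm.decomposeFin.symm (p, e)) 0) ((Perm.decomposeFin.symm (p, e)) 1)
          ((Perm.decomposeFin.symm (p, e)) 2) =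
      (if p = 0 then 1 else -1) * (((Perm.sign e : ℤ) : ℂ) *
        g p (swap 0 p (e 0).succ) (swap 0 p (e 1).succ)) := by
    intro p e
    have h1 : (Perm.decomposeFin.symm (p, e)) 1 = swap 0 p (e 0).succ :=
      Perm.decomposeFin_symm_apply_succ e p 0
    have h2 : (Perm.decomposeFin.symm (p, e)) 2 = swap 0 p (e 1).succ :=
      Perm.decomposeFin_symm_apply_succ e p 1
    rw [sign_dec, Perm.decomposeFin_symm_apply_zero, h1, h2, mul_assoc]
  simp only [h, ← Finset.mul_sum]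
  have h2 : ∀ p : Fin 3, ∑ e : Perm (Fin 2), ((Perm.sign e : ℤ) : ℂ) *
      g p (swap 0 p (e 0).succ) (swap 0 p (e 1).succ) =
      g p (swap 0 p (Fin.succ 0)) (swap 0 p (Fin.succ 1)) -
      g p (swap 0 p (Fin.succ 1)) (swap 0 p (Fin.succ 0)) := fun p =>
    sum_perm2 fun x y => g p (swap 0 p x.succ) (swap 0 p y.succ)
  simp only [h2]
  rw [Fin.sum_univ_three]
  have e0 : ∀ x : Fin 3, swap (0 : Fin 3) 0 x = x := by decide
  have e1 : swap (0 : Fin 3) 1 (Fin.succ 0) = 0 := by decide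
  have e2 : swap (0 : Fin 3) 1 (Fin.succ 1) = 2 := by decide
  have e3 : swap (0 : Fin 3) 2 (Fin.succ 0) = 1 := by decide
  have e4 : swap (0 : Fin 3) 2 (Fin.succ 1) = 0 := by decide
  have e5 : Fin.succ (0 : Fin 2) = 1 := rfl
  have e6 : Fin.succ (1 : Fin 2) = 2 := rfl
  rw [e0, e0, e1, e2, e3, e4, e5, e6]
  simp
  ring

theorem sum_perm4 (f : Fin 4 → Fin 4 → Fin 4 → Fin 4 → ℂ) :
    ∑ σ : Perm (Fin 4), ((Perm.sign σ : ℤ) : ℂ) * f (σ 0) (σ 1) (σ 2) (σ 3) =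
    f 0 1 2 3 - f 0 1 3 2 - f 0 2 1 3 + f 0 2 3 1 + f 0 3 1 2 - f 0 3 2 1
    - f 1 0 2 3 + f 1 0 3 2 + f 1 2 0 3 - f 1 2 3 0 - f 1 3 0 2 + f 1 3 2 0
    + f 2 0 1 3 - f 2 0 3 1 - f 2 1 0 3 + f 2 1 3 0 + f 2 3 0 1 - f 2 3 1 0
    - f 3 0 1 2 + f 3 0 2 1 + f 3 1 0 2 - f 3 1 2 0 - f 3 2 0 1 + f 3 2 1 0 := by
  rw [sum_perm_succ]
  have h : ∀ (p : Fin 4) (e : Perm (Fin 3)),
      ((Perm.sign (Perm.decomposeFin.symm (p, e)) : ℤ) : ℂ) *
        f ((Perm.decomposeFin.symm (p, e)) 0) ((Perm.decomposeFin.symm (p, e)) 1)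
          ((Perm.decomposeFin.symm (p, e)) 2) ((Perm.decomposeFin.symm (p, e)) 3) =
      (if p = 0 then 1 else -1) * (((Perm.sign e : ℤ) : ℂ) *
        f p (swap 0 p (e 0).succ) (swap 0 p (e 1).succ) (swap 0 p (e 2).succ)) := by
    intro p e
    have h1 : (Perm.decomposeFin.symm (p, e)) 1 = swap 0 p (e 0).succ :=
      Perm.decomposeFin_symm_apply_succ e p 0
    have h2 : (Perm.decomposeFin.symm (p, e)) 2 = swap 0 p (e 1).succ :=
      Perm.decomposeFin_symm_apply_succ e p 1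
    have h3 : (Perm.decomposeFin.symm (p, e)) 3 = swap 0 p (e 2).succ :=
      Perm.decomposeFin_symm_apply_succ e p 2
    rw [sign_dec, Perm.decomposeFin_symm_apply_zero, h1, h2, h3, mul_assoc]
  simp only [h, ← Finset.mul_sum]
  have h2 : ∀ p : Fin 4, ∑ e : Perm (Fin 3), ((Perm.sign e : ℤ) : ℂ) *
      f p (swap 0 p (e 0).succ) (swap 0 p (e 1).succ) (swap 0 p (e 2).succ) = _ := fun p =>
    sum_perm3 fun x y z => f p (swap 0 p x.succ) (swap 0 p y.succ) (swap 0 p z.succ)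
  simp only [h2]
  rw [Fin.sum_univ_four]
  have e0 : ∀ x : Fin 4, swap (0 : Fin 4) 0 x = x := by decide
  have e1 : swap (0 : Fin 4) 1 1 = 0 := by decide
  have e2 : swap (0 : Fin 4) 1 2 = 2 := by decide
  have e3 : swap (0 : Fin 4) 1 3 = 3 := by decide
  have e4 : swap (0 : Fin 4) 2 1 = 1 := by decide
  have e5 : swap (0 : Fin 4) 2 2 = 0 := by decide
  have e6 : swap (0 : Fin 4) 2 3 = 3 := by decide
  have e7 : swap (0 : Fin 4) 3 1 = 1 := by decide
  have e8 : swap (0 : Fin 4) 3 2 = 2 := by decide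
  have e9 : swap (0 : Fin 4) 3 3 = 0 := by decide
  have f0 : Fin.succ (0 : Fin 3) = 1 := rfl
  have f1 : Fin.succ (1 : Fin 3) = 2 := rfl
  have f2 : Fin.succ (2 : Fin 3) = 3 := rfl
  have g1 : (1 : Fin 4) ≠ 0 := by decide
  have g2 : (2 : Fin 4) ≠ 0 := by decide
  have g3 : (3 : Fin 4) ≠ 0 := by decide
  simp only [e0, e1, e2, e3, e4, e5, e6, e7, e8, e9, f0, f1, f2, if_neg g1, if_neg g2, if_neg g3, if_true]
  ring

/-- The value of `a ∧ b` in dimension 2. -/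
def w4 (A B : Fin 2 × Fin 2 → Fin 2 × Fin 2 → ℂ) : ℂ :=
  A (0, 0) (0, 1) * B (1, 0) (1, 1) - A (0, 0) (1, 0) * B (0, 1) (1, 1) +
    A (0, 0) (1, 1) * B (0, 1) (1, 0) + A (0, 1) (1, 0) * B (0, 0) (1, 1) -
    A (0, 1) (1, 1) * B (0, 0) (1, 0) + A (1, 0) (1, 1) * B (0, 0) (0, 1)

theorem alt_two (A B : Fin 2 × Fin 2 → Fin 2 × Fin 2 → ℂ) (hA : ∀ p q, A p q = - A q p)
    (hB : ∀ p q, B p q = - B q p) : Alt (n := 2) (fun i => if i.val = 0 then A else B) = w4 A B := by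
  unfold Alt
  let e : Fin 2 × Fin 2 ≃ Fin 4 := finProdFinEquiv
  have h1 : ∑ π : Perm (Fin 2 × Fin 2), ((Perm.sign π : ℤ) : ℂ) *
      ∏ i : Fin 2, (if i.val = 0 then A else B) (π (i, 0)) (π (i, 1)) =
      ∑ σ : Perm (Fin 4), ((Perm.sign σ : ℤ) : ℂ) * (A (e.symm (σ 0)) (e.symm (σ 1)) *
        B (e.symm (σ 2)) (e.symm (σ 3))) := by
    rw [← Equiv.sum_comp e.permCongr]
    refine Finset.sum_congr rfl fun π _ => ?_
    rw [Perm.sign_permCongr, Fin.prod_univ_two]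
    simp only [Equiv.permCongr_apply, Equiv.symm_apply_apply]
    rfl
  rw [h1, sum_perm4 fun x y z t => A (e.symm x) (e.symm y) * B (e.symm z) (e.symm t)]
  have e0 : e.symm 0 = (0, 0) := by decide
  have e1 : e.symm 1 = (0, 1) := by decide
  have e2 : e.symm 2 = (1, 0) := by decide
  have e3 : e.symm 3 = (1, 1) := by decide
  rw [e0, e1, e2, e3]
  have a10 := hA (0, 1) (0, 0)
  have a20 := hA (1, 0) (0, 0)
  have a30 := hA (1, 1) (0, 0)
  have a21 := hA (1, 0) (0, 1)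
  have a31 := hA (1, 1) (0, 1)
  have a32 := hA (1, 1) (1, 0)
  have b10 := hB (0, 1) (0, 0)
  have b20 := hB (1, 0) (0, 0)
  have b30 := hB (1, 1) (0, 0)
  have b21 := hB (1, 0) (0, 1)
  have b31 := hB (1, 1) (0, 1)
  have b32 := hB (1, 1) (1, 0)
  unfold w4
  rw [a10, a20, a30, a21, a31, a32, b10, b20, b30, b21, b31, b32]
  ring

end Vale.Agent.P281.H747.HK
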